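import Vale.Agent.P037.Defs
import Vale.Agent.P037.MiniPattern
import Vale.Agent.P037.H995.Defs
import Vale.Agent.P037.H995.Quant
import Vale.Agent.P037.H88.Defs
import Vale.Agent.P037.H88.Prop

open Vale.Agent.P037

/-- The polynomial ordered binary matrix-removal conjecture is false (1), and it fails for almost
every pattern: (2) for `k ≥ 2 ^ 30` all but at most `2 ^ (k ^ 2 - k / 12)` of the `2 ^ (k ^ 2)`
patterns of size `k` have a removal bound which is exponentially small in `ε ^ (-1/2)`, hence no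
polynomial one; (3) for `k ≥ 1000` at least `2 ^ (k ^ 2 - 26)` of them; (4) every pattern which
contains `H5` as a contiguous block and is rigid; (5) every block-diagonal pattern `dsum P`. -/
theorem Vale.Agent.Results.P037.AlmostAllPatterns.result :
    (¬ ∀ (k : ℕ) (H : Matrix (Fin k) (Fin k) Bool), 1 ≤ k → PolynomialRemoval H) ∧
    (∀ k : ℕ, 2 ^ 30 ≤ k →
      Nat.card {H : Matrix (Fin k) (Fin k) Bool // ¬ ExpHard H ∨ PolynomialRemoval H} ≤
        2 ^ (k ^ 2 - k / 12)) ∧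
    (∀ k : ℕ, 1000 ≤ k →
      2 ^ (k ^ 2 - 26) ≤
        Nat.card {H : Matrix (Fin k) (Fin k) Bool // ExpHard H ∧ ¬ PolynomialRemoval H}) ∧
    (∀ (k t : ℕ) (H : Matrix (Fin k) (Fin k) Bool), 1 ≤ t → 11 * t ≤ k → HasBlock H →
      Rigid t H → ExpHard H ∧ ¬ PolynomialRemoval H) ∧
    ∀ (m : ℕ) (P : Matrix (Fin m) (Fin m) Bool),
      ¬ PolynomialRemoval (dsum P) ∧
      ∀ ε : ℝ, 0 < ε → ε ≤ 1 / (100000 * (1 + 188 * (m : ℝ)) ^ 2) →
        ∀ n : ℕ, (2 : ℝ) ^ (1 / √ε) ≤ (n : ℝ) →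
          ∃ A : Matrix (Fin n) (Fin n) Bool, ε ≤ distFree (dsum P) A ∧
            (numCopies (dsum P) A : ℝ) ≤
              2 ^ (-(1 / (136 * √((1 + 188 * (m : ℝ)) * ε)))) * (n : ℝ) ^ (2 * (5 + m)) :=
  ⟨fun h => Mini.not_poly (h 5 H5 (by norm_num)), fun _ hk => Vale.Agent.P037G.almost_all hk,
    fun _ hk => Vale.Agent.P037C.positive hk,
    fun _ _ _ ht hk hB hH => Vale.Agent.P037G.hard_both ht hk hB hH,
    fun _ P => ⟨Blk.not_poly P, fun _ h0 h1 _ hn => Blk.quant P h0 h1 hn⟩⟩
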