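import Vale.Agent.P037.Defs
import Vale.Agent.P037.MiniPattern
import Vale.Agent.P037.H995.Defs
import Vale.Agent.P037.H995.Quant

open Vale.Agent.P037

/-- Disproof of the polynomial ordered binary matrix-removal conjecture by every block-diagonal
pattern `dsum P` with first block `H5` and an arbitrary second block `P`, with an exponential
bound valid for all large sizes; hence at least `2 ^ ((k - 5) ^ 2)` patterns of every size
`k ≥ 5` have no polynomial removal bound. -/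
theorem Vale.Agent.Results.P037.BlockPatterns.result :
    (¬ ∀ (k : ℕ) (H : Matrix (Fin k) (Fin k) Bool), 1 ≤ k → PolynomialRemoval H) ∧
    (∀ (m : ℕ) (P : Matrix (Fin m) (Fin m) Bool),
      ¬ PolynomialRemoval (dsum P) ∧
      ∀ ε : ℝ, 0 < ε → ε ≤ 1 / (100000 * (1 + 188 * (m : ℝ)) ^ 2) →
        ∀ n : ℕ, (2 : ℝ) ^ (1 / √ε) ≤ (n : ℝ) →
          ∃ A : Matrix (Fin n) (Fin n) Bool, ε ≤ distFree (dsum P) A ∧
            (numCopies (dsum P) A : ℝ) ≤
              2 ^ (-(1 / (136 * √((1 + 188 * (m : ℝ)) * ε)))) * (n : ℝ) ^ (2 * (5 + m))) ∧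
    ∀ k : ℕ, 5 ≤ k →
      2 ^ ((k - 5) ^ 2) ≤ Nat.card {H : Matrix (Fin k) (Fin k) Bool // ¬ PolynomialRemoval H} :=
  ⟨fun h => Mini.not_poly (h 5 H5 (by norm_num)),
    fun _ P => ⟨Blk.not_poly P, fun _ h0 h1 _ hn => Blk.quant P h0 h1 hn⟩,
    fun _ hk => Blk.card_ge hk⟩
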